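import Vale.Agent.H23.Antipodal
import Vale.Agent.H23.L1Main

/-!
# The antipodal property for `ℓ¹`-sums: sphere-subtype version
-/

namespace Vale.Agent.H23

section

variable {X₁ X₂ Y : Type*} [NormedAddCommGroup X₁] [NormedSpace ℝ X₁] [Nontrivial X₁]
  [NormedAddCommGroup X₂] [NormedSpace ℝ X₂] [Nontrivial X₂]
  [NormedAddCommGroup Y] [NormedSpace ℝ Y]

/-- Every surjective isometry from the unit sphere of the `ℓ¹`-sum of two nontrivial real normed
spaces onto the unit sphere of a real normed space maps antipodal points to antipodal points. -/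
theorem l1_sphere_antipodal
    (f : Metric.sphere (0 : WithLp 1 (X₁ × X₂)) 1 → Metric.sphere (0 : Y) 1)
    (hf : Isometry f) (hsurj : Function.Surjective f)
    (x : Metric.sphere (0 : WithLp 1 (X₁ × X₂)) 1) :
    ((f (-x) : Metric.sphere (0 : Y) 1) : Y) = -((f x : Metric.sphere (0 : Y) 1) : Y) := by
  obtain ⟨g₀, h1, h2, h3, h4⟩ := exists_fun_of_sphere_map f hf hsurj
  let g : X₁ → X₂ → Y := fun a b => g₀ (WithLp.toLp 1 (a, b))
  have hnorm : ∀ (a : X₁) (b : X₂), ‖(WithLp.toLp 1 (a, b) : WithLp 1 (X₁ × X₂))‖ = ‖a‖ + ‖b‖ := by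
    intro a b
    rw [WithLp.prod_norm_eq_of_L1]
    rfl
  have hg : L1Iso g := by
    refine ⟨?_, ?_, ?_⟩
    · intro a b hab
      exact h1 _ (by rw [hnorm, hab])
    · intro a b a' b' hab hab'
      show ‖g₀ _ - g₀ _‖ = _
      rw [h2 _ _ (by rw [hnorm, hab]) (by rw [hnorm, hab']), WithLp.prod_norm_eq_of_L1]
      rfl
    · intro w hw
      obtain ⟨x, hx, hgx⟩ := h3 w hw
      refine ⟨x.fst, x.snd, ?_, hgx⟩
      rw [← WithLp.prod_norm_eq_of_L1]; exact hx
  have hx1 : ‖(x : WithLp 1 (X₁ × X₂))‖ = 1 := mem_sphere_zero_iff_norm.mp x.2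
  have hmain := hg.map_neg_neg (c := (x : WithLp 1 (X₁ × X₂)).fst)
    (d := (x : WithLp 1 (X₁ × X₂)).snd) (by rw [← WithLp.prod_norm_eq_of_L1]; exact hx1)
  rw [← h4 (-x), ← h4 x]
  exact hmain

end

end Vale.Agent.H23
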