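import Vale.Agent.H23.ConePole
import Vale.Agent.H23.GenMain

/-!
# `ℓ¹`-sums with finite-dimensional summands and with the real line

* If each of two nonzero real normed spaces is strictly convex, or finite-dimensional, or has the
  Mazur-Ulam property, then their `ℓ¹`-sum has the Mazur-Ulam property.
* For every nonzero real normed space `X`, the `ℓ¹`-sum `X ⊕₁ ℝ` has the Mazur-Ulam property.
-/

namespace Vale.Agent.H23

universe u

section Core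

variable {X₁ X₂ Y : Type*} [NormedAddCommGroup X₁] [NormedSpace ℝ X₁]
  [NormedAddCommGroup X₂] [NormedSpace ℝ X₂] [NormedAddCommGroup Y] [NormedSpace ℝ Y]
  [Nontrivial X₁] [Nontrivial X₂] {g : X₁ → X₂ → Y}

/-- Additivity on the first summand when it is strictly convex, or finite-dimensional, or has the
Mazur-Ulam property for closed subspaces of `Y` as targets. -/
lemma L1Iso.G₁_add_fd_or (hg : L1Iso g)
    (h₁ : StrictConvexSpace ℝ X₁ ∨ FiniteDimensional ℝ X₁ ∨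
      ∀ (Z : Submodule ℝ Y), IsClosed (Z : Set Y) → ∀ k : X₁ → Z,
        (∀ a, ‖a‖ = 1 → ‖k a‖ = 1) → (∀ a b, ‖a‖ = 1 → ‖b‖ = 1 → ‖k a - k b‖ = ‖a - b‖) →
        (∀ w : Z, ‖w‖ = 1 → ∃ a, ‖a‖ = 1 ∧ k a = w) →
        ∃ T : X₁ ≃ₗᵢ[ℝ] Z, ∀ a, ‖a‖ = 1 → T a = k a)
    (a a' : X₁) : G₁ g (a + a') = G₁ g a + G₁ g a' := by
  obtain ⟨b, hb⟩ : ∃ b : X₂, ‖b‖ = 1 := by
    obtain ⟨e, he⟩ := exists_ne (0 : X₂)
    exact ⟨‖e‖⁻¹ • e, norm_inv_smul_self he⟩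
  rcases h₁ with hsc | hfd | hM
  · have := hsc
    exact hg.G₁_add_of_cone hb (fun t ht0 ht1 => hg.cone_of_strictConvex hb ht0 ht1) a a'
  · have := hfd
    exact hg.G₁_add_of_cone hb (fun t ht0 ht1 => hg.cone_of_finiteDimensional hb ht0 ht1) a a'
  · exact hg.G₁_add' hM a a'

/-- Core theorem: each summand is strictly convex, or finite-dimensional, or has the Mazur-Ulam
property for closed subspaces of `Y` as targets. -/
theorem L1Iso.exists_linearIsometryEquiv_fd_or (hg : L1Iso g)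
    (h₁ : StrictConvexSpace ℝ X₁ ∨ FiniteDimensional ℝ X₁ ∨
      ∀ (Z : Submodule ℝ Y), IsClosed (Z : Set Y) → ∀ k : X₁ → Z,
        (∀ a, ‖a‖ = 1 → ‖k a‖ = 1) → (∀ a b, ‖a‖ = 1 → ‖b‖ = 1 → ‖k a - k b‖ = ‖a - b‖) →
        (∀ w : Z, ‖w‖ = 1 → ∃ a, ‖a‖ = 1 ∧ k a = w) →
        ∃ T : X₁ ≃ₗᵢ[ℝ] Z, ∀ a, ‖a‖ = 1 → T a = k a)
    (h₂ : StrictConvexSpace ℝ X₂ ∨ FiniteDimensional ℝ X₂ ∨
      ∀ (Z : Submodule ℝ Y), IsClosed (Z : Set Y) → ∀ k : X₂ → Z,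
        (∀ a, ‖a‖ = 1 → ‖k a‖ = 1) → (∀ a b, ‖a‖ = 1 → ‖b‖ = 1 → ‖k a - k b‖ = ‖a - b‖) →
        (∀ w : Z, ‖w‖ = 1 → ∃ a, ‖a‖ = 1 ∧ k a = w) →
        ∃ T : X₂ ≃ₗᵢ[ℝ] Z, ∀ a, ‖a‖ = 1 → T a = k a) :
    ∃ T : WithLp 1 (X₁ × X₂) ≃ₗᵢ[ℝ] Y,
      ∀ x : WithLp 1 (X₁ × X₂), ‖x‖ = 1 → T x = g x.fst x.snd :=
  hg.exists_linearIsometryEquiv_of_add (hg.G₁_add_fd_or h₁) (hg.flip.G₁_add_fd_or h₂)

end Core

section LineCore

variable {X₁ Y : Type*} [NormedAddCommGroup X₁] [NormedSpace ℝ X₁] [Nontrivial X₁]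
  [NormedAddCommGroup Y] [NormedSpace ℝ Y] {g : X₁ → ℝ → Y}

/-- Core theorem for the `ℓ¹`-sum of an arbitrary nonzero normed space with the real line: no
assumption on `X₁`. -/
theorem L1Iso.exists_linearIsometryEquiv_line (hg : L1Iso g) :
    ∃ T : WithLp 1 (X₁ × ℝ) ≃ₗᵢ[ℝ] Y,
      ∀ x : WithLp 1 (X₁ × ℝ), ‖x‖ = 1 → T x = g x.fst x.snd :=
  hg.exists_linearIsometryEquiv_of_add
    (hg.G₁_add_of_cone (b := 1) (by simp) (fun _ ht0 ht1 => hg.cone_real ht0 ht1))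
    (hg.flip.G₁_add_fd_or (Or.inr (Or.inl inferInstance)))

end LineCore

section Main

variable {X₁ X₂ : Type u} [NormedAddCommGroup X₁] [NormedSpace ℝ X₁] [Nontrivial X₁]
  [NormedAddCommGroup X₂] [NormedSpace ℝ X₂] [Nontrivial X₂]

/-- If each of two nonzero real normed spaces is strictly convex, or finite-dimensional, or has
the Mazur-Ulam property, then their `ℓ¹`-sum has the Mazur-Ulam property. -/
theorem mazurUlamProperty_l1_fd_or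
    (hc₁ : StrictConvexSpace ℝ X₁ ∨ FiniteDimensional ℝ X₁ ∨ MazurUlamProperty.{u, u} X₁)
    (hc₂ : StrictConvexSpace ℝ X₂ ∨ FiniteDimensional ℝ X₂ ∨ MazurUlamProperty.{u, u} X₂) :
    MazurUlamProperty.{u, u} (WithLp 1 (X₁ × X₂)) := by
  intro Y _ _ _ f hf hsurj
  obtain ⟨g, hg, hgf⟩ := exists_l1Iso_of_sphere_map f hf hsurj
  obtain ⟨T, hT⟩ := hg.exists_linearIsometryEquiv_fd_or
    (hc₁.imp id (Or.imp id (fun h₁ Z hZ k hk1 hk2 hk3 => by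
      have : CompleteSpace Z := hZ.completeSpace_coe
      exact h₁.conv Z k hk1 hk2 hk3)))
    (hc₂.imp id (Or.imp id (fun h₂ Z hZ k hk1 hk2 hk3 => by
      have : CompleteSpace Z := hZ.completeSpace_coe
      exact h₂.conv Z k hk1 hk2 hk3)))
  refine ⟨T, fun x => ?_⟩
  have hx1 : ‖(x : WithLp 1 (X₁ × X₂))‖ = 1 := mem_sphere_zero_iff_norm.mp x.2
  rw [hT _ hx1, hgf x]

omit [NormedAddCommGroup X₂] [NormedSpace ℝ X₂] [Nontrivial X₂] in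
/-- For every nonzero real normed space `X`, the `ℓ¹`-sum `X ⊕₁ ℝ` has the Mazur-Ulam
property. -/
theorem mazurUlamProperty_l1_line : MazurUlamProperty.{u, u} (WithLp 1 (X₁ × ℝ)) := by
  intro Y _ _ _ f hf hsurj
  obtain ⟨g, hg, hgf⟩ := exists_l1Iso_of_sphere_map f hf hsurj
  obtain ⟨T, hT⟩ := hg.exists_linearIsometryEquiv_line
  refine ⟨T, fun x => ?_⟩
  have hx1 : ‖(x : WithLp 1 (X₁ × ℝ))‖ = 1 := mem_sphere_zero_iff_norm.mp x.2
  rw [hT _ hx1, hgf x]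

end Main

end Vale.Agent.H23
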