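import Vale.Agent.H23.Kappa
import Vale.Agent.H23.L1Main

/-!
# `ℓ¹`-sums of two spaces each of which is strictly convex or finite-dimensional

If `X₁` and `X₂` have the Mazur-Ulam property and each of them is strictly convex or
finite-dimensional, then `X₁ ⊕₁ X₂` has the Mazur-Ulam property.
-/

namespace Vale.Agent.H23

section Extreme

variable {E : Type*} [NormedAddCommGroup E] [NormedSpace ℝ E]

/-- Extreme points of the closed unit ball are extreme in the metric sense. -/
lemma mext_of_mem_extremePoints [Nontrivial E] {b : E}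
    (hb : b ∈ Set.extremePoints ℝ (Metric.closedBall (0 : E) 1)) : MExt b := by
  rw [mem_extremePoints] at hb
  obtain ⟨hb1, hext⟩ := hb
  have hble : ‖b‖ ≤ 1 := mem_closedBall_zero_iff.mp hb1
  have hbn : ‖b‖ = 1 := by
    by_contra hne
    have hlt : ‖b‖ < 1 := lt_of_le_of_ne hble hne
    obtain ⟨e, he⟩ := exists_ne (0 : E)
    have hepos : 0 < ‖e‖ := norm_pos_iff.mpr he
    obtain ⟨δ, hδ⟩ : ∃ δ : ℝ, δ = (1 - ‖b‖) / ‖e‖ := ⟨_, rfl⟩
    have hδpos : 0 < δ := by rw [hδ]; exact div_pos (by linarith) hepos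
    have hδe : ‖δ • e‖ = 1 - ‖b‖ := by
      rw [norm_smul, Real.norm_eq_abs, abs_of_pos hδpos, hδ]
      field_simp
    have h1 : b + δ • e ∈ Metric.closedBall (0 : E) 1 := by
      rw [mem_closedBall_zero_iff]
      have := norm_add_le b (δ • e)
      linarith
    have h2 : b - δ • e ∈ Metric.closedBall (0 : E) 1 := by
      rw [mem_closedBall_zero_iff]
      have := norm_sub_le b (δ • e)
      linarith
    have h3 : b ∈ openSegment ℝ (b + δ • e) (b - δ • e) :=
      ⟨1 / 2, 1 / 2, by norm_num, by norm_num, by norm_num, by module⟩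
    have h4 := (hext _ h1 _ h2 h3).1
    have h5 : δ • e = 0 := by simpa using h4
    rcases smul_eq_zero.mp h5 with h6 | h6
    · exact hδpos.ne' h6
    · exact he h6
  refine ⟨hbn, fun d hd => ?_⟩
  by_cases hd0 : d = 0
  · simp [hd0]
  by_cases hbd : b - d = 0
  · have : d = b := (sub_eq_zero.mp hbd).symm
    rw [this, hbn, one_smul]
  have hdpos : 0 < ‖d‖ := norm_pos_iff.mpr hd0
  have hbdpos : 0 < ‖b - d‖ := norm_pos_iff.mpr hbd
  have h1 : ‖d‖⁻¹ • d ∈ Metric.closedBall (0 : E) 1 := by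
    rw [mem_closedBall_zero_iff, norm_inv_smul_self hd0]
  have h2 : ‖b - d‖⁻¹ • (b - d) ∈ Metric.closedBall (0 : E) 1 := by
    rw [mem_closedBall_zero_iff, norm_inv_smul_self hbd]
  have h3 : b ∈ openSegment ℝ (‖d‖⁻¹ • d) (‖b - d‖⁻¹ • (b - d)) := by
    refine ⟨‖d‖, ‖b - d‖, hdpos, hbdpos, hd, ?_⟩
    rw [norm_smul_inv_smul_self, norm_smul_inv_smul_self]
    abel
  have h4 := (hext _ h1 _ h2 h3).1
  rw [← h4, norm_smul_inv_smul_self]

/-- In a finite-dimensional space every unit vector is at distance less than `2` from an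
extreme point of the unit ball. -/
lemma exists_mext_near [FiniteDimensional ℝ E] [Nontrivial E] {d : E} (hd : ‖d‖ = 1) :
    ∃ b : E, MExt b ∧ ‖d - b‖ < 2 := by
  classical
  have hK : IsCompact (Metric.closedBall (0 : E) 1) := isCompact_closedBall 0 1
  have hKc : Convex ℝ (Metric.closedBall (0 : E) 1) := convex_closedBall 0 1
  have hKM := closure_convexHull_extremePoints hK hKc
  have hdK : d ∈ closure (convexHull ℝ (Set.extremePoints ℝ (Metric.closedBall (0 : E) 1))) := by
    rw [hKM, mem_closedBall_zero_iff, hd]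
  obtain ⟨n, hn⟩ : ∃ n : ℕ, n = Module.finrank ℝ E := ⟨_, rfl⟩
  have hε : (0 : ℝ) < 1 / (n + 1) := by positivity
  obtain ⟨x, hx, hdx⟩ := Metric.mem_closure_iff.mp hdK _ hε
  rw [dist_eq_norm] at hdx
  obtain ⟨ι, _, z, w, hz, hzind, hwpos, hwsum, hzx⟩ := eq_pos_convex_span_of_mem_convexHull hx
  have hcard : Fintype.card ι ≤ n + 1 := by
    have h1 := hzind.card_le_finrank_succ
    have h2 := Submodule.finrank_le (vectorSpan ℝ (Set.range z))
    rw [hn]; omega
  have hne : (Finset.univ : Finset ι).Nonempty := by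
    by_contra hemp
    rw [Finset.not_nonempty_iff_eq_empty] at hemp
    rw [hemp, Finset.sum_empty] at hwsum
    exact zero_ne_one hwsum
  have hcardpos : 0 < Fintype.card ι := Finset.card_pos.mpr hne
  obtain ⟨i, -, hi⟩ := Finset.exists_le_of_sum_le (f := fun _ : ι => (1 : ℝ) / Fintype.card ι)
    (g := w) hne (by
      rw [Finset.sum_const, Finset.card_univ, nsmul_eq_mul, hwsum]
      field_simp
      exact le_refl _)
  have hwi : (1 : ℝ) / (n + 1) ≤ w i := by
    refine le_trans ?_ hi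
    have h3 : (Fintype.card ι : ℝ) ≤ (n : ℝ) + 1 := by exact_mod_cast hcard
    have h4 : (0 : ℝ) < Fintype.card ι := by exact_mod_cast hcardpos
    exact one_div_le_one_div_of_le h4 h3
  have hzball : ∀ j, ‖z j‖ ≤ 1 := fun j =>
    mem_closedBall_zero_iff.mp (extremePoints_subset (hz ⟨j, rfl⟩))
  refine ⟨z i, mext_of_mem_extremePoints (hz ⟨i, rfl⟩), ?_⟩
  have hxz : x - z i = ∑ j, w j • (z j - z i) := by
    rw [← hzx]
    simp only [smul_sub, Finset.sum_sub_distrib]
    rw [← Finset.sum_smul, hwsum, one_smul]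
  have hbound : ‖x - z i‖ ≤ 2 - 2 * w i := by
    rw [hxz]
    refine (norm_sum_le _ _).trans ?_
    have hterm : ∀ j ∈ (Finset.univ : Finset ι),
        ‖w j • (z j - z i)‖ ≤ 2 * w j - (if j = i then 2 * w i else 0) := by
      intro j _
      rw [norm_smul, Real.norm_eq_abs, abs_of_pos (hwpos j)]
      by_cases hji : j = i
      · rw [if_pos hji, hji, sub_self, norm_zero]
        linarith
      · rw [if_neg hji, sub_zero]
        have h5 : ‖z j - z i‖ ≤ 2 := by
          have := norm_sub_le (z j) (z i)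
          linarith [hzball j, hzball i]
        nlinarith [hwpos j]
    refine (Finset.sum_le_sum hterm).trans ?_
    rw [Finset.sum_sub_distrib, ← Finset.mul_sum, hwsum, Finset.sum_ite_eq' Finset.univ i]
    simp
  have h6 : ‖d - z i‖ ≤ ‖d - x‖ + ‖x - z i‖ := by
    have := norm_add_le (d - x) (x - z i)
    rwa [sub_add_sub_cancel] at this
  have hwipos := hwpos i
  linarith

/-- In a finite-dimensional space no nonzero vector is at maximal distance from all extreme
points of the unit ball. -/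
lemma sep_of_finiteDimensional [FiniteDimensional ℝ E] [Nontrivial E] (d : E)
    (h : ∀ b ∈ {b : E | MExt b}, ‖d - b‖ = ‖d‖ + 1) : d = 0 := by
  by_contra hd
  obtain ⟨b, hb, hlt⟩ := exists_mext_near (norm_inv_smul_self hd)
  have h1 := h b hb
  have h2 : ‖-b + d‖ = ‖-b‖ + ‖d‖ := by
    rw [norm_neg, hb.1, neg_add_eq_sub, h1]; ring
  have h3 := norm_add_smul_ge h2 (t := ‖d‖⁻¹) (inv_nonneg.mpr (norm_nonneg d))
  rw [norm_neg, hb.1, inv_mul_cancel₀ (norm_ne_zero_iff.mpr hd), neg_add_eq_sub] at h3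
  linarith

/-- In a strictly convex space no nonzero vector is at maximal distance from all unit
vectors. -/
lemma sep_of_strictConvex [StrictConvexSpace ℝ E] (d : E)
    (h : ∀ b ∈ {b : E | MExt b}, ‖d - b‖ = ‖d‖ + 1) : d = 0 := by
  by_contra hd
  have hb1 : ‖‖d‖⁻¹ • d‖ = 1 := norm_inv_smul_self hd
  have h1 := h _ (mext_of_strictConvex hb1)
  have hpos := norm_pos_iff.mpr hd
  have e : d - ‖d‖⁻¹ • d = (1 - ‖d‖⁻¹) • d := by module
  have e2 : |1 - ‖d‖⁻¹| * ‖d‖ = |‖d‖ - 1| := by
    nth_rewrite 2 [← abs_of_pos hpos]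
    rw [← abs_mul]
    congr 1
    field_simp
  rw [e, norm_smul, Real.norm_eq_abs, e2] at h1
  rcases abs_cases (‖d‖ - 1) with ⟨h2, _⟩ | ⟨h2, _⟩ <;> linarith

end Extreme

end Vale.Agent.H23
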