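import Vale.Agent.H23.L1Pi
import Vale.Agent.H23.L1Main

/-!
# Finite `ℓ¹`-sums and the Mazur-Ulam property: sphere-subtype versions
-/

namespace Vale.Agent.H23

universe w u v

section PiSum

variable {ι : Type w} [Fintype ι] {X : ι → Type u}
  [∀ i, NormedAddCommGroup (X i)] [∀ i, NormedSpace ℝ (X i)] [∀ i, StrictConvexSpace ℝ (X i)]
  {Y : Type v} [NormedAddCommGroup Y] [NormedSpace ℝ Y]

/-- Sphere-subtype version of the core theorem for finite `ℓ¹`-sums. -/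
theorem l1_pi_sphere_extension
    (hM : ∀ (i : ι) (Z : Submodule ℝ Y), IsClosed (Z : Set Y) → ∀ k : X i → Z,
      (∀ a, ‖a‖ = 1 → ‖k a‖ = 1) → (∀ a b, ‖a‖ = 1 → ‖b‖ = 1 → ‖k a - k b‖ = ‖a - b‖) →
      (∀ w : Z, ‖w‖ = 1 → ∃ a, ‖a‖ = 1 ∧ k a = w) →
      ∃ T : X i ≃ₗᵢ[ℝ] Z, ∀ a, ‖a‖ = 1 → T a = k a)
    (f : Metric.sphere (0 : PiLp 1 X) 1 → Metric.sphere (0 : Y) 1)
    (hf : Isometry f) (hsurj : Function.Surjective f) :
    ∃ T : PiLp 1 X ≃ₗᵢ[ℝ] Y,
      ∀ x : Metric.sphere (0 : PiLp 1 X) 1, T (x : PiLp 1 X) = (f x : Y) := by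
  classical
  obtain ⟨g, h1, h2, h3, h4⟩ := exists_fun_of_sphere_map f hf hsurj
  have hg : SphIso g := ⟨h1, h2, h3⟩
  obtain ⟨T, hT⟩ := hg.exists_linearIsometryEquiv_pi hM
  exact ⟨T, fun x => by rw [hT _ (mem_sphere_zero_iff_norm.mp x.2), h4]⟩

/-- Stability of the Mazur-Ulam property under finite `ℓ¹`-sums of strictly convex spaces. -/
theorem mazurUlamProperty_l1_pi (h : ∀ i, MazurUlamProperty.{u, v} (X i)) :
    MazurUlamProperty.{max w u, v} (PiLp 1 X) := by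
  intro Y _ _ _ f hf hsurj
  refine l1_pi_sphere_extension ?_ f hf hsurj
  intro i Z hZ k hk1 hk2 hk3
  haveI : CompleteSpace Z := hZ.completeSpace_coe
  obtain ⟨f', hf', hs', hfk⟩ := exists_sphere_map_of_fun k hk1 hk2 hk3
  obtain ⟨T, hT⟩ := h i Z f' hf' hs'
  refine ⟨T, fun a ha => ?_⟩
  have := hT ⟨a, mem_sphere_zero_iff_norm.mpr ha⟩
  rw [hfk] at this
  exact this

end PiSum

section PiInner

variable {ι : Type*} [Fintype ι] {H : ι → Type*}
  [∀ i, NormedAddCommGroup (H i)] [∀ i, InnerProductSpace ℝ (H i)]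
  {Y : Type*} [NormedAddCommGroup Y] [NormedSpace ℝ Y]

/-- Every surjective isometry from the unit sphere of a finite `ℓ¹`-sum of real inner product
spaces onto the unit sphere of a real normed space extends to a linear isometric equivalence. -/
theorem l1_pi_inner_sphere_extension
    (f : Metric.sphere (0 : PiLp 1 H) 1 → Metric.sphere (0 : Y) 1)
    (hf : Isometry f) (hsurj : Function.Surjective f) :
    ∃ T : PiLp 1 H ≃ₗᵢ[ℝ] Y,
      ∀ x : Metric.sphere (0 : PiLp 1 H) 1, T (x : PiLp 1 H) = (f x : Y) := by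
  refine l1_pi_sphere_extension ?_ f hf hsurj
  intro i Z _ k hk1 hk2 hk3
  exact exists_linearIsometryEquiv_of_sphere_isometry hk1 hk2 hk3

end PiInner

end Vale.Agent.H23
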