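import Vale.Agent.H23.Ray
import Vale.Agent.H23.L1Main

/-!
# The Mazur-Ulam property passes from `X` to `X ⊕₁ ℝ`
-/

namespace Vale.Agent.H23

universe u

section

variable {X : Type u} [NormedAddCommGroup X] [NormedSpace ℝ X] [CompleteSpace X] [Nontrivial X]

/-- If a nonzero real Banach space `X` has the Mazur-Ulam property, then so does the `ℓ¹`-sum
`X ⊕₁ ℝ`. -/
theorem mazurUlamProperty_l1_real (h : MazurUlamProperty.{u, u} X) :
    MazurUlamProperty.{u, u} (WithLp 1 (X × ℝ)) := by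
  intro Y _ _ _ f hf hsurj
  obtain ⟨g₀, h1, h2, h3, h4⟩ := exists_fun_of_sphere_map f hf hsurj
  let g : X → ℝ → Y := fun a b => g₀ (WithLp.toLp 1 (a, b))
  have hnorm : ∀ (a : X) (b : ℝ), ‖(WithLp.toLp 1 (a, b) : WithLp 1 (X × ℝ))‖ = ‖a‖ + ‖b‖ := by
    intro a b
    rw [WithLp.prod_norm_eq_of_L1]
    rfl
  have hg : L1Iso g := by
    refine ⟨?_, ?_, ?_⟩
    · intro a b hab
      exact h1 _ (by rw [hnorm, hab])
    · intro a b a' b' hab hab'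
      show ‖g₀ _ - g₀ _‖ = _
      rw [h2 _ _ (by rw [hnorm, hab]) (by rw [hnorm, hab']), WithLp.prod_norm_eq_of_L1]
      rfl
    · intro w hw
      obtain ⟨x, hx, hgx⟩ := h3 w hw
      refine ⟨x.fst, x.snd, ?_, hgx⟩
      rw [← WithLp.prod_norm_eq_of_L1]; exact hx
  have hconv : ∀ (Z : Type u) [NormedAddCommGroup Z] [NormedSpace ℝ Z] [CompleteSpace Z]
      (k : X → Z), (∀ a, ‖a‖ = 1 → ‖k a‖ = 1) →
      (∀ a b, ‖a‖ = 1 → ‖b‖ = 1 → ‖k a - k b‖ = ‖a - b‖) →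
      (∀ w : Z, ‖w‖ = 1 → ∃ a, ‖a‖ = 1 ∧ k a = w) →
      ∃ T : X ≃ₗᵢ[ℝ] Z, ∀ a, ‖a‖ = 1 → T a = k a := by
    intro Z _ _ _ k hk1 hk2 hk3
    obtain ⟨f', hf', hs', hfk⟩ := exists_sphere_map_of_fun k hk1 hk2 hk3
    obtain ⟨T, hT⟩ := h Z f' hf' hs'
    refine ⟨T, fun a ha => ?_⟩
    have := hT ⟨a, mem_sphere_zero_iff_norm.mpr ha⟩
    rw [hfk] at this
    exact this
  obtain ⟨T, hT⟩ := hg.exists_linearIsometryEquiv_real
    (fun Z hZ k hk1 hk2 hk3 => by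
      have : CompleteSpace Z := hZ.completeSpace_coe
      exact hconv Z k hk1 hk2 hk3)
    (fun k hk1 hk2 hk3 => hconv X k hk1 hk2 hk3)
  refine ⟨T, fun x => ?_⟩
  have hx1 : ‖(x : WithLp 1 (X × ℝ))‖ = 1 := mem_sphere_zero_iff_norm.mp x.2
  rw [hT _ hx1, ← h4 x]
  rfl

end

end Vale.Agent.H23
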