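import Vale.Agent.H23.LSummand

/-!
# `ℓ¹`-sums of arbitrary families

The `ℓ¹`-sum `lp E 1` of a family `E i` of real normed spaces, at least two of which are nonzero,
has a nontrivial L-projection (the projection onto one coordinate), so every surjective isometry
from its unit sphere onto the unit sphere of a real normed space is the restriction of a linear
isometry.
-/

namespace Vale.Agent.H23

section LpFamily

variable {ι : Type*} {E : ι → Type*} [∀ i, NormedAddCommGroup (E i)] [∀ i, NormedSpace ℝ (E i)]
  {Y : Type*} [NormedAddCommGroup Y] [NormedSpace ℝ Y]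

omit [∀ i, NormedSpace ℝ (E i)] in
/-- The norm of an element of the `ℓ¹`-sum is the sum of the norms of its coordinates. -/
lemma lp_one_hasSum_norm (x : lp E 1) : HasSum (fun k => ‖x k‖) ‖x‖ := by
  have h := lp.hasSum_norm (p := 1) (by simp) x
  simpa using h

/-- Every surjective isometry from the unit sphere of the `ℓ¹`-sum of a family of real normed
spaces with at least two nonzero members onto the unit sphere of a real normed space is the
restriction of a surjective real-linear isometry. -/
theorem exists_linearIsometryEquiv_lp_one {i j : ι} (hij : i ≠ j) (hi : Nontrivial (E i))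
    (hj : Nontrivial (E j))
    (f : Metric.sphere (0 : lp E 1) 1 → Metric.sphere (0 : Y) 1) (hf : Isometry f)
    (hsurj : Function.Surjective f) :
    ∃ T : lp E 1 ≃ₗᵢ[ℝ] Y, ∀ x : Metric.sphere (0 : lp E 1) 1, T (x : lp E 1) = (f x : Y) := by
  classical
  obtain ⟨P, hPdef⟩ : ∃ P : lp E 1 →ₗ[ℝ] lp E 1,
      P = (lp.lsingle 1 i).comp (lp.evalₗ E 1 i) := ⟨_, rfl⟩
  have hPx : ∀ x : lp E 1, P x = lp.single 1 i (x i) := by
    intro x; rw [hPdef]; rfl
  have hPP : ∀ x, P (P x) = P x := by
    intro x
    rw [hPx (P x), hPx x, lp.single_apply_self]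
  have hL : ∀ x, ‖x‖ = ‖P x‖ + ‖x - P x‖ := by
    intro x
    have h1 := lp_one_hasSum_norm x
    have h2 := lp_one_hasSum_norm (x - P x)
    have h3 : ‖P x‖ = ‖x i‖ := by
      rw [hPx]; exact lp.norm_single (by norm_num) i (x i)
    have h4 : ∀ k, ‖(x - P x) k‖ = if k = i then 0 else ‖x k‖ := by
      intro k
      rw [lp.coeFn_sub, Pi.sub_apply, hPx]
      by_cases hk : k = i
      · subst hk
        rw [lp.single_apply_self, sub_self, norm_zero, if_pos rfl]
      · rw [lp.single_apply_ne 1 i (x i) hk, sub_zero, if_neg hk]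
    have h5 := h1.summable.tsum_eq_add_tsum_ite i
    rw [h1.tsum_eq] at h5
    rw [h5, h3, ← h2.tsum_eq]
    congr 1
    exact tsum_congr fun k => (h4 k).symm
  have h0 : ∃ x, P x ≠ 0 := by
    obtain ⟨a, ha⟩ := exists_ne (0 : E i)
    refine ⟨lp.single 1 i a, fun h => ha ?_⟩
    rw [hPx, lp.single_apply_self] at h
    have h' := congrArg (fun z : lp E 1 => z i) h
    simpa [lp.single_apply_self] using h'
  have h1 : ∃ x, P x ≠ x := by
    obtain ⟨b, hb⟩ := exists_ne (0 : E j)
    refine ⟨lp.single 1 j b, fun h => hb ?_⟩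
    rw [hPx, lp.single_apply_ne 1 j b hij, lp.single_zero] at h
    have h' := congrArg (fun z : lp E 1 => z j) h
    simpa [lp.single_apply_self] using h'.symm
  exact exists_linearIsometryEquiv_of_lProjection P hPP hL h0 h1 f hf hsurj

end LpFamily

end Vale.Agent.H23
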