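import Vale.Agent.H23.FinDim
import Vale.Agent.H23.L1Main

/-!
# `ℓ¹`-sums of two spaces each of which is strictly convex or finite-dimensional

If `X₁` and `X₂` have the Mazur-Ulam property and each of them is strictly convex or
finite-dimensional, then `X₁ ⊕₁ X₂` has the Mazur-Ulam property.
-/

namespace Vale.Agent.H23

universe u

section Lemmas

variable {E : Type*} [NormedAddCommGroup E] [NormedSpace ℝ E]

/-- The rigidity of the self-embeddings `κ` for a space which is strictly convex, or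
finite-dimensional with the Mazur-Ulam property for itself as target. -/
lemma rigid_of_or (hc : StrictConvexSpace ℝ E ∨ FiniteDimensional ℝ E)
    (hS : ∀ k : E → E, (∀ a, ‖a‖ = 1 → ‖k a‖ = 1) →
      (∀ a b, ‖a‖ = 1 → ‖b‖ = 1 → ‖k a - k b‖ = ‖a - b‖) →
      (∀ w : E, ‖w‖ = 1 → ∃ a, ‖a‖ = 1 ∧ k a = w) →
      ∃ T : E ≃ₗᵢ[ℝ] E, ∀ a, ‖a‖ = 1 → T a = k a)
    {t : ℝ} (ht0 : 0 < t) (ht1 : t < 1) (κ : E → E) (h1 : ∀ a, ‖a‖ = 1 → ‖κ a‖ = 1)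
    (h2 : ∀ a a', ‖a‖ = 1 → ‖a'‖ = 1 → ‖κ a - κ a'‖ = ‖a - a'‖)
    (h3 : ∀ a, ‖a‖ = 1 → ‖(1 - t) • κ a - a‖ = t) (a : E) (ha : ‖a‖ = 1) : κ a = a := by
  rcases hc with hc | hc
  · exact rigid_of_strictConvex ht1 κ h1 h3 a ha
  · exact rigid_of_self hS ht0 ht1 κ h1 h2 h3 (sphere_embedding_surjective κ h1 h2) a ha

/-- The extreme points separate, for a space which is strictly convex or finite-dimensional. -/
lemma sep_of_or [Nontrivial E] (hc : StrictConvexSpace ℝ E ∨ FiniteDimensional ℝ E) (d : E)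
    (h : ∀ b ∈ {b : E | MExt b}, ‖d - b‖ = ‖d‖ + 1) : d = 0 := by
  rcases hc with hc | hc
  · exact sep_of_strictConvex d h
  · exact sep_of_finiteDimensional d h

end Lemmas

section Core

variable {X₁ X₂ Y : Type*} [NormedAddCommGroup X₁] [NormedSpace ℝ X₁] [Nontrivial X₁]
  [NormedAddCommGroup X₂] [NormedSpace ℝ X₂] [Nontrivial X₂]
  [NormedAddCommGroup Y] [NormedSpace ℝ Y] {g : X₁ → X₂ → Y}

/-- Core theorem for the `ℓ¹`-sum of two nontrivial normed spaces each of which is strictly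
convex or finite-dimensional. -/
theorem L1Iso.exists_linearIsometryEquiv_mixed (hg : L1Iso g)
    (hc₁ : StrictConvexSpace ℝ X₁ ∨ FiniteDimensional ℝ X₁)
    (hc₂ : StrictConvexSpace ℝ X₂ ∨ FiniteDimensional ℝ X₂)
    (hM₁ : ∀ (Z : Submodule ℝ Y), IsClosed (Z : Set Y) → ∀ k : X₁ → Z,
      (∀ a, ‖a‖ = 1 → ‖k a‖ = 1) → (∀ a b, ‖a‖ = 1 → ‖b‖ = 1 → ‖k a - k b‖ = ‖a - b‖) →
      (∀ w : Z, ‖w‖ = 1 → ∃ a, ‖a‖ = 1 ∧ k a = w) →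
      ∃ T : X₁ ≃ₗᵢ[ℝ] Z, ∀ a, ‖a‖ = 1 → T a = k a)
    (hM₂ : ∀ (Z : Submodule ℝ Y), IsClosed (Z : Set Y) → ∀ k : X₂ → Z,
      (∀ a, ‖a‖ = 1 → ‖k a‖ = 1) → (∀ a b, ‖a‖ = 1 → ‖b‖ = 1 → ‖k a - k b‖ = ‖a - b‖) →
      (∀ w : Z, ‖w‖ = 1 → ∃ a, ‖a‖ = 1 ∧ k a = w) →
      ∃ T : X₂ ≃ₗᵢ[ℝ] Z, ∀ a, ‖a‖ = 1 → T a = k a)
    (hS₁ : ∀ k : X₁ → X₁, (∀ a, ‖a‖ = 1 → ‖k a‖ = 1) →
      (∀ a b, ‖a‖ = 1 → ‖b‖ = 1 → ‖k a - k b‖ = ‖a - b‖) →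
      (∀ w : X₁, ‖w‖ = 1 → ∃ a, ‖a‖ = 1 ∧ k a = w) →
      ∃ T : X₁ ≃ₗᵢ[ℝ] X₁, ∀ a, ‖a‖ = 1 → T a = k a)
    (hS₂ : ∀ k : X₂ → X₂, (∀ a, ‖a‖ = 1 → ‖k a‖ = 1) →
      (∀ a b, ‖a‖ = 1 → ‖b‖ = 1 → ‖k a - k b‖ = ‖a - b‖) →
      (∀ w : X₂, ‖w‖ = 1 → ∃ a, ‖a‖ = 1 ∧ k a = w) →
      ∃ T : X₂ ≃ₗᵢ[ℝ] X₂, ∀ a, ‖a‖ = 1 → T a = k a) :
    ∃ T : WithLp 1 (X₁ × X₂) ≃ₗᵢ[ℝ] Y,
      ∀ x : WithLp 1 (X₁ × X₂), ‖x‖ = 1 → T x = g x.fst x.snd := by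
  have hseg₂ : ∀ b ∈ {b : X₂ | MExt b}, ∀ a : X₁, ‖a‖ = 1 → SegAt g a b := by
    intro b hb a ha
    exact hg.segAt_of_mext hb
      (fun t ht0 ht1 κ h1 h2 h3 _ => rigid_of_or hc₁ hS₁ ht0 ht1 κ h1 h2 h3) a ha
  have hseg₁ : ∀ a ∈ {a : X₁ | MExt a}, ∀ b : X₂, ‖b‖ = 1 → SegAt g a b := by
    intro a ha b hb
    have h := hg.flip.segAt_of_mext ha
      (fun t ht0 ht1 κ h1 h2 h3 _ => rigid_of_or hc₂ hS₂ ht0 ht1 κ h1 h2 h3) b hb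
    exact h.flip
  exact hg.exists_linearIsometryEquiv_of_segAt {a : X₁ | MExt a} (fun a ha => ha.1) hseg₁
    (sep_of_or hc₁) {b : X₂ | MExt b} (fun b hb => hb.1) hseg₂ (sep_of_or hc₂) hM₁ hM₂

end Core

section Main

variable {X₁ X₂ : Type u} [NormedAddCommGroup X₁] [NormedSpace ℝ X₁] [Nontrivial X₁]
  [NormedAddCommGroup X₂] [NormedSpace ℝ X₂] [Nontrivial X₂]

/-- Conversion of the Mazur-Ulam property into the function form used by the core theorems. -/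
lemma MazurUlamProperty.conv {X : Type u} [NormedAddCommGroup X] [NormedSpace ℝ X]
    (h : MazurUlamProperty.{u, u} X)
    (Z : Type u) [NormedAddCommGroup Z] [NormedSpace ℝ Z] [CompleteSpace Z]
    (k : X → Z) (hk1 : ∀ a, ‖a‖ = 1 → ‖k a‖ = 1)
    (hk2 : ∀ a b, ‖a‖ = 1 → ‖b‖ = 1 → ‖k a - k b‖ = ‖a - b‖)
    (hk3 : ∀ w : Z, ‖w‖ = 1 → ∃ a, ‖a‖ = 1 ∧ k a = w) :
    ∃ T : X ≃ₗᵢ[ℝ] Z, ∀ a, ‖a‖ = 1 → T a = k a := by
  obtain ⟨f', hf', hs', hfk⟩ := exists_sphere_map_of_fun k hk1 hk2 hk3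
  obtain ⟨T, hT⟩ := h Z f' hf' hs'
  refine ⟨T, fun a ha => ?_⟩
  have := hT ⟨a, mem_sphere_zero_iff_norm.mpr ha⟩
  rw [hfk] at this
  exact this

/-- If two nonzero real Banach spaces have the Mazur-Ulam property and each of them is strictly
convex or finite-dimensional, then their `ℓ¹`-sum has the Mazur-Ulam property. -/
theorem mazurUlamProperty_l1_mixed [CompleteSpace X₁] [CompleteSpace X₂]
    (hc₁ : StrictConvexSpace ℝ X₁ ∨ FiniteDimensional ℝ X₁)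
    (hc₂ : StrictConvexSpace ℝ X₂ ∨ FiniteDimensional ℝ X₂)
    (h₁ : MazurUlamProperty.{u, u} X₁) (h₂ : MazurUlamProperty.{u, u} X₂) :
    MazurUlamProperty.{u, u} (WithLp 1 (X₁ × X₂)) := by
  intro Y _ _ _ f hf hsurj
  obtain ⟨g₀, h1, h2, h3, h4⟩ := exists_fun_of_sphere_map f hf hsurj
  let g : X₁ → X₂ → Y := fun a b => g₀ (WithLp.toLp 1 (a, b))
  have hnorm : ∀ (a : X₁) (b : X₂),
      ‖(WithLp.toLp 1 (a, b) : WithLp 1 (X₁ × X₂))‖ = ‖a‖ + ‖b‖ := by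
    intro a b
    rw [WithLp.prod_norm_eq_of_L1]
    rfl
  have hg : L1Iso g := by
    refine ⟨?_, ?_, ?_⟩
    · intro a b hab
      exact h1 _ (by rw [hnorm, hab])
    · intro a b a' b' hab hab'
      show ‖g₀ _ - g₀ _‖ = _
      rw [h2 _ _ (by rw [hnorm, hab]) (by rw [hnorm, hab']), WithLp.prod_norm_eq_of_L1]
      rfl
    · intro w hw
      obtain ⟨x, hx, hgx⟩ := h3 w hw
      refine ⟨x.fst, x.snd, ?_, hgx⟩
      rw [← WithLp.prod_norm_eq_of_L1]; exact hx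
  obtain ⟨T, hT⟩ := hg.exists_linearIsometryEquiv_mixed hc₁ hc₂
    (fun Z hZ k hk1 hk2 hk3 => by
      have : CompleteSpace Z := hZ.completeSpace_coe
      exact h₁.conv Z k hk1 hk2 hk3)
    (fun Z hZ k hk1 hk2 hk3 => by
      have : CompleteSpace Z := hZ.completeSpace_coe
      exact h₂.conv Z k hk1 hk2 hk3)
    (fun k hk1 hk2 hk3 => h₁.conv X₁ k hk1 hk2 hk3)
    (fun k hk1 hk2 hk3 => h₂.conv X₂ k hk1 hk2 hk3)
  refine ⟨T, fun x => ?_⟩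
  have hx1 : ‖(x : WithLp 1 (X₁ × X₂))‖ = 1 := mem_sphere_zero_iff_norm.mp x.2
  rw [hT _ hx1, ← h4 x]
  rfl

end Main

end Vale.Agent.H23
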